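import Vale.Agent.P301Z.Ab.Spec
import Vale.Agent.P290Z.K.Nem.Core

/-!
# P290Z, part III (K): NEM
-/

open scoped ContDiff

namespace Vale.Agent.P301Z.Ab

open Vale.Agent.P290Z.Kur

theorem nem : StNem := fun _ _ _ _ _ _ _ _ _ _ h =>
  ⟨Nem.sup h, contDiff_infty.2 fun n => Nem.contDiff_sup n h, fun _ _ => rfl⟩

end Vale.Agent.P301Z.Ab
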