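import Vale.Agent.P301Z.Ab.Spec
import Vale.Agent.P290Z.K.PullC2.A

/-! P290Z (K): PULLC2 -/

open scoped NNReal Topology ContDiff
open Filter Set Metric

noncomputable section

namespace Vale.Agent.P301Z.Ab

open Vale.Agent.P290Z.Kur

open Vale.Agent.P272.K.LIN PullC2

theorem pullC2 : StPullC2 := by
  intro E _ _ _ X _ _ _ _ _ 𝒞 α h0 h1 i
  have hr := 𝒞.r_pos i
  let κ : ContDiffBump (𝒞.c i) := ⟨7 / 4 * 𝒞.r i, 15 / 8 * 𝒞.r i, by positivity, by linarith⟩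
  have hK := isCompact_closedBall (𝒞.c i) (15 / 8 * 𝒞.r i)
  have hz : ∀ (b : ContDiffBump (𝒞.c i)) (ρ : ℝ), b.rOut ≤ ρ → ∀ y, y ∉ closedBall (𝒞.c i) ρ →
      b y = 0 := fun b ρ h y hy => b.zero_of_le_dist (h.trans (not_le.1 hy).le)
  have hκ := hz κ _ le_rfl
  obtain ⟨C₁, hC₁, c1⟩ := cut_c2 𝒞 h0 h1 i hK (closedBall_subset_ball (by linarith)) κ.contDiff hκ
  obtain ⟨C₂, hC₂, c2⟩ := comp_th h0 h1 (chi 𝒞 i).contDiff hK
    (hz (chi 𝒞 i) _ (by simp only [chi]; linarith))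
  obtain ⟨C₃, hC₃, c3⟩ := ext_c2 𝒞 h0 h1 (𝒞.mem i) (isCompact_closedBall _ _) (𝒞.sub i)
    (𝒞.bump i).contDiff (hz (𝒞.bump i) _ le_rfl)
  refine ⟨min 1 (𝒞.r i / 4), by positivity, 1 + C₃ * (C₂ * C₁) + C₃ * C₁, fun s hs v => ?_⟩
  rw [lt_min_iff] at hs
  obtain ⟨a1, a2⟩ := c1 v
  obtain ⟨b1, b2⟩ := c2 s hs.1.le _ a1 (fun y hy => by rw [hκ y hy, zero_mul]) _ a2
  obtain ⟨u, hu, hu'⟩ := c3 _ a1 _ a2
  obtain ⟨w, hw, hw'⟩ := c3 _ b1 _ b2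
  refine ⟨v + w - u, fun x => ?_, ?_⟩
  · rw [Cov.fn_sub, Cov.fn_add, hu, hw, Th]
    split_ifs with hx
    · rw [ext0_of_mem hx, ext0_of_mem hx, (𝒞.e i).left_inv hx, th]
      by_cases hy : 𝒞.e i x ∈ closedBall (𝒞.c i) (3 / 2 * 𝒞.r i)
      · have h2 : ‖chi 𝒞 i (𝒞.e i x) • s‖ ≤ ‖s‖ := by
          rw [norm_smul, Real.norm_of_nonneg (chi 𝒞 i).nonneg]
          exact mul_le_of_le_one_left (norm_nonneg _) (chi 𝒞 i).le_one
        have h3 := dist_triangle (𝒞.e i x + chi 𝒞 i (𝒞.e i x) • s) (𝒞.e i x) (𝒞.c i)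
        rw [dist_self_add_left] at h3
        rw [mem_closedBall] at hy
        rw [(𝒞.bump i).one_of_mem_closedBall (show dist _ _ ≤ 2 * 𝒞.r i by linarith),
          κ.one_of_mem_closedBall (show dist _ _ ≤ 7 / 4 * 𝒞.r i by linarith),
          κ.one_of_mem_closedBall (show dist _ _ ≤ 7 / 4 * 𝒞.r i by linarith [hs.2])]
        ring
      · rw [hz (chi 𝒞 i) _ le_rfl _ hy, zero_smul, add_zero, (𝒞.e i).left_inv hx]
        ring
    · rw [ext0_of_notMem hx, ext0_of_notMem hx]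
      ring
  · have := norm_sub_le_of_le (norm_add_le_of_le (le_refl ‖v‖) hw') hu'
    linarith

end Vale.Agent.P301Z.Ab
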