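import Vale.Agent.P301Z.Ab.AB
import Vale.Agent.P301Z.Ab.Bij
import Vale.Agent.P301Z.Ab.Nem
import Vale.Agent.P301Z.Ab.Opr
import Vale.Agent.P301Z.Ab.PullC2
import Vale.Agent.P301Z.Ab.Trans

/-! P301: small solutions of a nonlinear elliptic system, smooth in all variables -/

namespace Vale.Agent.P301Z.Ab

theorem ab_main : StAB := ab invB bij (opr nem jetS) pullC2 (transl nem)

end Vale.Agent.P301Z.Ab
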